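import Vale.Agent.P284.H213.T.Desc0

/-!
# P284 (helper213), T3⁺ (N3): descent of the complete data to the quotient by a normal subgroup acting
trivially
-/

open scoped Manifold ContDiff Topology InnerProductSpace ComplexConjugate
open Filter Set Metric

noncomputable section

set_option linter.unusedSectionVars false

namespace Vale.Agent.P284.H213.T

open Vale.Agent.P272.K Vale.Agent.P284.H894 Vale.Agent.P284.H894.G Vale.Agent.P284.H894.V
  Vale.Agent.P284.H894.W Vale.Agent.P284.H573 Vale.Agent.P284.H213.Grp Vale.Agent.P284.H395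
  Vale.Agent.P284.H619 Vale.Agent.P284.H625 Vale.Agent.P284.H378 Vale.Agent.P284.H478.G
  Vale.Agent.P284.H988.N Vale.Agent.P284.H494 Vale.Agent.P284.H494.N Vale.Agent.P284.H501.Core
  Vale.Agent.P284.H119.Kaz Vale.Agent.P284.H213.Q Vale.Agent.P284.H837.N Vale.Agent.P284.H650.T
  Vale.Agent.P284.H501

section
variable {E Γ : Type} [TopologicalSpace E] [Group Γ] [MulAction Γ E]

/-- a section of `E → E / M` -/
def sec (M : Subgroup Γ) : H885.Quo E M → E := Function.surjInv (H885.mk_surjective M)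

omit [TopologicalSpace E] in
theorem mk_sec (M : Subgroup Γ) (a : H885.Quo E M) : H885.mk M (sec M a) = a :=
  Function.surjInv_eq _ _

omit [TopologicalSpace E] in
theorem sec_mk (M : Subgroup Γ) (y : E) : ∃ m ∈ M, m • y = sec M (H885.mk M y) :=
  H885.mk_eq.1 (mk_sec M _).symm

end

section
variable {n q : ℕ} {X : Type} [TopologicalSpace X] [ChartedSpace (Cm n) X]
  {E Γ : Type} [TopologicalSpace E] [Group Γ] [MulAction Γ E] {p : E → X} {F : E → Cm q}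
  (hp : IsGalois Γ p) (M : Subgroup Γ) (hF : ∀ m ∈ M, ∀ y, F (m • y) = F y)

include hp in
theorem vs_mk (y : E) (e : Chart n X) :
    VS (H885.toX hp M) (H885.desc M F hF) (H885.mk M y) e = VS p F y e := by
  ext ξ
  constructor
  · intro h f hf
    exact h f ((H885.eventually_mk hp M y).2 hf)
  · intro h f hf
    exact h f ((H885.eventually_mk hp M y).1 hf)

theorem rep_mk (y : E) (e : Chart n X) (f : Cm n → Cm q) :
    H501.Rep (H885.toX hp M) (H885.desc M F hF) (H885.mk M y) e f ↔ H501.Rep p F y e f :=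
  ⟨fun h => ⟨h.1, (H885.eventually_mk hp M y).1 h.2⟩,
    fun h => ⟨h.1, (H885.eventually_mk hp M y).2 h.2⟩⟩

theorem rv_mk : RV n (H885.toX hp M) (H885.desc M F hF) = RV n p F := by
  ext t
  constructor
  · intro h y hy
    exact (H885.reg_desc hp M hF y).1 (h (H885.mk M y) hy)
  · intro h a ha
    obtain ⟨y, rfl⟩ := H885.mk_surjective M a
    exact (H885.reg_desc hp M hF y).2 (h y ha)

end

section
variable {n q : ℕ} {X : Type} [TopologicalSpace X] [ChartedSpace (Cm n) X]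
  {E Γ W : Type} [TopologicalSpace E] [Group Γ] [MulAction Γ E]
  [NormedAddCommGroup W] [InnerProductSpace ℂ W] {p : E → X} {F : E → Cm q}
  {S : E → Chart n X → Cm n [⋀^Fin (q + 1)]→L[ℂ] W}
  {Θ : E → Chart n X → (Cm n →L[ℂ] W)} {J : W →SL[starRingEnd ℂ] W} {T : E → E → W}
  (hp : IsGalois Γ p) (M : Subgroup Γ) (hF : ∀ m ∈ M, ∀ y, F (m • y) = F y)

/-- the form on `E / M` -/
def S₁ (S : E → Chart n X → Cm n [⋀^Fin (q + 1)]→L[ℂ] W) :
    H885.Quo E M → Chart n X → Cm n [⋀^Fin (q + 1)]→L[ℂ] W := fun a e => S (sec M a) e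

/-- the relative form on `E / M` -/
def Θ₁ (Θ : E → Chart n X → (Cm n →L[ℂ] W)) : H885.Quo E M → Chart n X → (Cm n →L[ℂ] W) :=
  fun a e => Θ (sec M a) e

/-- the two point potential on `E / M` -/
def T₁ (T : E → E → W) : H885.Quo E M → H885.Quo E M → W := fun a b => T (sec M a) (sec M b)

theorem S₁_mk (hS : ∀ m ∈ M, ∀ y e, At e (p y) → S (m • y) e = S y e) {y : E} {e : Chart n X}
    (he : At e (p y)) : S₁ M S (H885.mk M y) e = S y e := by
  obtain ⟨m, hm, h⟩ := sec_mk M y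
  show S (sec M (H885.mk M y)) e = S y e
  rw [← h]
  exact hS m hm y e he

theorem Θ₁_mk (hΘ : ∀ m ∈ M, ∀ y e, Reg (n := n) p F y → At e (p y) → ∀ ξ ∈ VS p F y e,
    Θ (m • y) e ξ = Θ y e ξ) {y : E} {e : Chart n X} (hy : Reg (n := n) p F y)
    (he : At e (p y)) {ξ : Cm n} (hξ : ξ ∈ VS p F y e) :
    Θ₁ M Θ (H885.mk M y) e ξ = Θ y e ξ := by
  obtain ⟨m, hm, h⟩ := sec_mk M y
  show Θ (sec M (H885.mk M y)) e ξ = Θ y e ξ
  rw [← h]
  exact hΘ m hm y e hy he ξ hξ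

theorem T₁_mk (hF : ∀ m ∈ M, ∀ y, F (m • y) = F y) (hT : TwoPot p F Θ J T)
    (hM : ∀ m ∈ M, ∀ y, F y ∈ RV n p F → T y (m • y) = 0) {y y' : E} (hyy : F y = F y')
    (hy : F y ∈ RV n p F) : T₁ M T (H885.mk M y) (H885.mk M y') = T y y' := by
  obtain ⟨m, hm, h⟩ := sec_mk M y
  obtain ⟨m', hm', h'⟩ := sec_mk M y'
  show T (sec M (H885.mk M y)) (sec M (H885.mk M y')) = T y y'
  rw [← h, ← h']
  have e1 := hT.add (m • y) y (m' • y') (hF m hm y) (hyy.trans (hF m' hm' y').symm)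
    (by rw [hF m hm]; exact hy)
  have e2 := hT.add y y' (m' • y') hyy (hF m' hm' y').symm hy
  have e3 : T (m • y) y = 0 := by
    rw [TwoPot.symm hT (hF m hm y).symm hy, hM m hm y hy, neg_zero]
  rw [← e1, ← e2, e3, hM m' hm' y' (hyy ▸ hy), zero_add, add_zero]

/-- descent of the potentials -/
theorem jpot_mk (hcov : IsCoveringMap p) (hΘ : ∀ m ∈ M, ∀ y e, Reg (n := n) p F y → At e (p y) →
    ∀ ξ ∈ VS p F y e, Θ (m • y) e ξ = Θ y e ξ) (hRV : IsOpen (RV n p F)) (hc : Continuous F)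
    {y : E} {e : Chart n X} (hy : F y ∈ RV n p F) (he : At e (p y)) {G : Cm n → W} :
    JPot (H885.toX hp M) (H885.desc M F hF) (Θ₁ M Θ) (H885.mk M y) e G ↔ JPot p F Θ y e G := by
  have h1 : ∀ᶠ y' in 𝓝 y, F y' ∈ RV n p F := hc.continuousAt.eventually (hRV.mem_nhds hy)
  have h2 : ∀ᶠ y' in 𝓝 y, At e (p y') := ep_at hcov.isLocalHomeomorph he
  constructor
  · intro h
    refine ⟨h.an, ?_⟩
    filter_upwards [(H885.eventually_mk hp M y).1 h.pot, h1, h2] with y' g1 g2 g3 ξ hξ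
    rw [vs_mk hp M hF] at g1
    rw [← Θ₁_mk M hΘ (g2 y' rfl) g3 hξ]
    exact g1 ξ hξ
  · intro h
    refine ⟨h.an, (H885.eventually_mk hp M y).2 ?_⟩
    filter_upwards [h.pot, h1, h2] with y' g1 g2 g3 ξ hξ
    rw [vs_mk hp M hF] at hξ
    rw [Θ₁_mk M hΘ (g2 y' rfl) g3 hξ]
    exact g1 ξ hξ

/-- descent of the two point potential -/
theorem twoPot_mk (hcov : IsCoveringMap p) (hΘ : ∀ m ∈ M, ∀ y e, Reg (n := n) p F y →
    At e (p y) → ∀ ξ ∈ VS p F y e, Θ (m • y) e ξ = Θ y e ξ) (hRV : IsOpen (RV n p F))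
    (hc : Continuous F) (hT : TwoPot p F Θ J T)
    (hM : ∀ m ∈ M, ∀ y, F y ∈ RV n p F → T y (m • y) = 0) :
    TwoPot (H885.toX hp M) (H885.desc M F hF) (Θ₁ M Θ) J (T₁ M T) := by
  refine ⟨fun a a' a'' h1 h2 h3 => ?_, fun a a' e e' G G' h1 h2 he he' hG hG' => ?_⟩
  · obtain ⟨y, rfl⟩ := H885.mk_surjective M a
    obtain ⟨y', rfl⟩ := H885.mk_surjective M a'
    obtain ⟨y'', rfl⟩ := H885.mk_surjective M a''
    rw [rv_mk hp M hF] at h3
    have g1 : F y = F y' := h1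
    have g2 : F y' = F y'' := h2
    have g3 : F y ∈ RV n p F := h3
    rw [T₁_mk M hF hT hM g1 g3, T₁_mk M hF hT hM g2 (g1 ▸ g3), T₁_mk M hF hT hM (g1.trans g2) g3]
    exact hT.add y y' y'' g1 g2 g3
  · obtain ⟨y, rfl⟩ := H885.mk_surjective M a
    obtain ⟨y', rfl⟩ := H885.mk_surjective M a'
    rw [rv_mk hp M hF] at h2
    have g1 : F y = F y' := h1
    have g2 : F y ∈ RV n p F := h2
    have k1 := (jpot_mk hp M hF hcov hΘ hRV hc g2 he).1 hG
    have k2 := (jpot_mk hp M hF hcov hΘ hRV hc (g1 ▸ g2) he').1 hG'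
    obtain ⟨A, hA, h⟩ := hT.loc y y' e e' G G' g1 g2 he he' k1 k2
    refine ⟨A, hA, ?_⟩
    rw [nhds_prod_eq, H885.nhds_mk hp M, H885.nhds_mk hp M, prod_map_map_eq, eventually_map,
      ← nhds_prod_eq]
    have h3 : ∀ᶠ z : E × E in 𝓝 (y, y'), F z.1 ∈ RV n p F :=
      (hc.comp continuous_fst).continuousAt.eventually (hRV.mem_nhds g2)
    filter_upwards [h, h3] with z h4 h5 h6
    have h7 : F z.1 = F z.2 := h6
    show T₁ M T (H885.mk M z.1) (H885.mk M z.2) = _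
    rw [T₁_mk M hF hT hM h7 h5]
    exact h4 h7

/-- descent of the relative form -/
theorem srel_mk [IsManifold 𝓘(ℂ, Cm n) ω X] [M.Normal] (hcov : IsCoveringMap p) {B : ℝ}
    {w : Chart n X → Cm n → Matrix (Fin n) (Fin n) ℂ} (hB : HolB p w F B) {G : Subgroup Γ}
    {ρ : Γ →* (W ≃ₗᵢ[ℂ] W)} {ρ' : Γ ⧸ M →* (W ≃ₗᵢ[ℂ] W)} (hρ : ∀ g : Γ, ρ' (g : Γ ⧸ M) = ρ g)
    (hS : ∀ m ∈ M, ∀ y e, At e (p y) → S (m • y) e = S y e)
    (hΘ : ∀ m ∈ M, ∀ y e, Reg (n := n) p F y →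
    At e (p y) → ∀ ξ ∈ VS p F y e, Θ (m • y) e ξ = Θ y e ξ)
    (h : SRel p F (ρ.comp G.subtype) S Θ) :
    SRel (H885.toX hp M) (H885.desc M F hF)
      (ρ'.comp (G.map (QuotientGroup.mk' M)).subtype) (S₁ M S) (Θ₁ M Θ) := by
  have hp' := hcov.isLocalHomeomorph
  have hgerm : ∀ (y : E) (e : Chart n X) (s : Cm n → Cm n [⋀^Fin (q + 1)]→L[ℂ] W),
      At e (p y) → ((∀ᶠ a in 𝓝 (H885.mk M y), S₁ M S a e = s (e (H885.toX hp M a))) ↔
        ∀ᶠ y' in 𝓝 y, S y' e = s (e (p y'))) := by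
    intro y e s he
    rw [H885.eventually_mk hp M y]
    constructor
    · intro h1
      filter_upwards [h1, ep_at hp' he] with y' g1 g2
      rw [← S₁_mk (p := p) M hS g2]
      exact g1
    · intro h1
      filter_upwards [h1, ep_at hp' he] with y' g1 g2
      rw [S₁_mk (p := p) M hS g2]
      exact g1
  refine ⟨⟨⟨fun a e he => ?_, fun a e e' he he' ξ => ?_⟩, fun a e f he hf hsu ξ i j hij hi hj => ?_,
    fun a e f s he hf hs hss => ?_⟩, fun a e s he hs hss => ?_, fun g a e he ξ => ?_, ?_,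
    fun a e f he hf hsu Θ' hW ξ hξ => ?_⟩
  · obtain ⟨y, rfl⟩ := H885.mk_surjective M a
    obtain ⟨s, hs, hs1⟩ := h.rel.form.holo y e he
    exact ⟨s, hs, (hgerm y e s he).2 hs1⟩
  · obtain ⟨y, rfl⟩ := H885.mk_surjective M a
    rw [S₁_mk (p := p) M hS he, S₁_mk (p := p) M hS he']
    exact h.rel.form.change y e e' he he' ξ
  · obtain ⟨y, rfl⟩ := H885.mk_surjective M a
    rw [S₁_mk (p := p) M hS he]
    exact h.rel.rel y e f he ((rep_mk hp M hF y e f).1 hf) hsu ξ i j hij hi hj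
  · obtain ⟨y, rfl⟩ := H885.mk_surjective M a
    exact h.rel.push y e f s he ((rep_mk hp M hF y e f).1 hf) hs ((hgerm y e s he).1 hss)
  · obtain ⟨y, rfl⟩ := H885.mk_surjective M a
    exact h.closed y e s he hs ((hgerm y e s he).1 hss)
  · obtain ⟨y, rfl⟩ := H885.mk_surjective M a
    obtain ⟨_, g, hg, rfl⟩ := g
    have he' : At e (p (g • y)) := by rwa [H885.map_smul hp]
    show S₁ M S (H885.mk M (g • y)) e ξ = ρ' (g : Γ ⧸ M) (S₁ M S (H885.mk M y) e ξ)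
    rw [S₁_mk (p := p) M hS he', S₁_mk (p := p) M hS he, hρ]
    exact h.equi ⟨g, hg⟩ y e he ξ
  · obtain ⟨y, e, he, ξ, hξ⟩ := h.ne
    exact ⟨H885.mk M y, e, he, ξ, by rwa [S₁_mk (p := p) M hS he]⟩
  · obtain ⟨y, rfl⟩ := H885.mk_surjective M a
    have hf' := (rep_mk hp M hF y e f).1 hf
    have he' : At e (p y) := he
    rw [S₁_mk (p := p) M hS he'] at hW
    have hR : Reg (n := n) p F y := (H338.reg_iff hp' he' hf').2 hsu
    have hV : ξ ∈ VS p F y e := (mem_VS' hcov he' hf').2 hξ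
    rw [Θ₁_mk (F := F) M hΘ hR he' hV]
    exact h.th y e f he' hf' hsu Θ' hW ξ hξ

end

end Vale.Agent.P284.H213.T
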