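import Vale.Agent.P284.H650.T.Spec
import Vale.Agent.P284.H213.N.Asm
import Vale.Agent.P284.H224.Top
import Vale.Agent.P284.H625.NS.LocForm
import Vale.Agent.P284.H501.Core.Th
import Vale.Agent.P284.H619.Fib2

/-!
# P284 (helper213), T3⁺ (N3): descent of the complete data, preparations
-/

open scoped Manifold ContDiff Topology InnerProductSpace ComplexConjugate
open Filter Set Metric

noncomputable section

namespace Vale.Agent.P284.H213.T

open Vale.Agent.P272.K Vale.Agent.P284.H894 Vale.Agent.P284.H894.G Vale.Agent.P284.H894.V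
  Vale.Agent.P284.H894.W Vale.Agent.P284.H573 Vale.Agent.P284.H213.Grp Vale.Agent.P284.H395
  Vale.Agent.P284.H619 Vale.Agent.P284.H625 Vale.Agent.P284.H378 Vale.Agent.P284.H478.G
  Vale.Agent.P284.H988.N Vale.Agent.P284.H494 Vale.Agent.P284.H494.N Vale.Agent.P284.H501.Core
  Vale.Agent.P284.H119.Kaz Vale.Agent.P284.H213.Q Vale.Agent.P284.H837.N Vale.Agent.P284.H650.T
  Vale.Agent.P284.H501

/-- regular values are an open set with connected fibres -/
theorem rv_adat {n q : ℕ} {X : Type} [TopologicalSpace X] [T2Space X] [CompactSpace X]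
    [ConnectedSpace X] [ChartedSpace (Cm n) X] [IsManifold 𝓘(ℂ, Cm n) ω X]
    {w : Chart n X → Cm n → Matrix (Fin n) (Fin n) ℂ} {E Γ : Type} [TopologicalSpace E]
    [ConnectedSpace E] [Group Γ] [MulAction Γ E] {p : E → X} {F : E → Cm q} {G K : Subgroup Γ}
    {A : Γ →* (Cm q ≃ₗ[ℂ] Cm q)} {c : Γ → Cm q} (h : StdN w G p F A c K) :
    IsOpen (RV n p F) ∧ ∀ t ∈ RV n p F, IsConnected (F ⁻¹' {t}) := by
  obtain ⟨B, hB⟩ := h.hol
  have hfi : G.FiniteIndex := h.dat.fi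
  obtain ⟨Y, _, _, _, _, _, _, qY, π, hπ, -, hq, hpq⟩ := H885.exists_quo n X E Γ p h.gal G hfi
  have hc : ∀ (g : G) (y : E), F ((g : Γ) • y) = F y + c g := by
    intro g y
    rw [h.eqv, h.dat.one _ g.2]
    rfl
  have hreg : ∀ y, Reg (n := n) qY F y ↔ Reg (n := n) p F y := fun y => hπ.reg_iff hpq
  have hRVe : RV n qY F = RV n p F := by
    ext t
    exact ⟨fun h y hy => (hreg y).1 (h y hy), fun h y hy => (hreg y).2 (h y hy)⟩
  have hP : Per qY (H885.pull π w) F (fun g : G => c g) :=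
    ⟨⟨B, hπ.holB hpq hB⟩, hc, h.dat.lat.disc⟩
  obtain ⟨h3, h4, -, -, -, -, h5⟩ := H224.rvStmt n q Y (H885.pull π w) E G qY hq F
    (fun g : G => c g) hP (by
      obtain ⟨y, hy⟩ := h.reg
      exact ⟨y, (hreg y).2 hy⟩)
  obtain ⟨t, ht, htc⟩ : ∃ t ∈ RV n p F, IsConnected (F ⁻¹' {t}) := by
    obtain ⟨T, hT, hTi, h1⟩ := h.conn
    obtain ⟨t, ht⟩ : ∃ t, t ∉ T := by
      by_contra hcon
      push Not at hcon
      have : T = univ := eq_univ_of_forall hcon
      rw [this, interior_univ] at hTi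
      exact (univ_nonempty (α := Cm q)).ne_empty hTi
    exact ⟨t, (h1 t ht).2, (h1 t ht).1⟩
  rw [hRVe] at h3 h5
  exact ⟨h3, h5 ⟨t, ht, htc⟩⟩

section
variable {n q : ℕ} {X : Type} [TopologicalSpace X] [ChartedSpace (Cm n) X]
  {w : Chart n X → Cm n → Matrix (Fin n) (Fin n) ℂ}
  {E Γ W : Type} [TopologicalSpace E] [Group Γ] [MulAction Γ E]
  [NormedAddCommGroup W] [InnerProductSpace ℂ W] {p : E → X} {F : E → Cm q} {B : ℝ}
  {π : Γ →* (W ≃ₗᵢ[ℂ] W)} {S : E → Chart n X → Cm n [⋀^Fin (q + 1)]→L[ℂ] W}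
  {Θ : E → Chart n X → (Cm n →L[ℂ] W)}

/-- **local potentials** at regular points -/
theorem jpot_ex [IsManifold 𝓘(ℂ, Cm n) ω X] [CompleteSpace W] (hp : IsCoveringMap p) (hF : HolB p w F B)
    (hS : SRel p F π S Θ) {y : E} {e : Chart n X} (hy : Reg (n := n) p F y) (he : At e (p y)) :
    ∃ G : Cm n → W, JPot p F Θ y e G := by
  have hp' := hp.isLocalHomeomorph
  obtain ⟨f, hf⟩ := rep_exists hF y e he
  obtain ⟨s, hs, hsS⟩ := hS.rel.form.holo y e he
  have hsu := (H338.reg_iff hp' he hf).1 hy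
  have hsurj : ∀ᶠ z in 𝓝 (e (p y)), Function.Surjective (fderiv ℂ f z) := by
    obtain ⟨J, hJ⟩ := dL_ne hsu
    have hd : AnalyticAt ℂ (fun z => dL (fderiv ℂ f z) (fun i => Pi.single (J i) 1)) (e (p y)) :=
      an_dL hf.1.fderiv _
    filter_upwards [hd.continuousAt.eventually_ne hJ] with z hz
    exact surj_of_dL hz
  have hrel : ∀ᶠ z in 𝓝 (e (p y)), ∀ (ξ : Fin (q + 1) → Cm n) (i j : Fin (q + 1)), i ≠ j →
      fderiv ℂ f z (ξ i) = 0 → fderiv ℂ f z (ξ j) = 0 → s z ξ = 0 := by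
    have h1 : ∀ᶠ y' in 𝓝 y, ∀ (ξ : Fin (q + 1) → Cm n) (i j : Fin (q + 1)), i ≠ j →
        fderiv ℂ f (e (p y')) (ξ i) = 0 → fderiv ℂ f (e (p y')) (ξ j) = 0 → s (e (p y')) ξ = 0 := by
      filter_upwards [ep_at hp' he, hf.near hp' he, hsS, (ep_ev hp' he).2 hsurj] with y' h1 h2 h3 h4
      intro ξ i j hij hi hj
      rw [← h3]
      exact hS.rel.rel y' e f h1 h2 h4 ξ i j hij hi hj
    exact (ep_ev hp' he).1 h1
  obtain ⟨G, hG, hGW⟩ := rel_poincare hf.1 hs (hS.closed y e s he hs hsS) hrel hsu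
  refine ⟨G, hG, ?_⟩
  filter_upwards [ep_at hp' he, hf.near hp' he, hsS, (ep_ev hp' he).2 hsurj,
    (ep_ev hp' he).2 hGW] with y' h1 h2 h3 h4 h5 ξ hξ
  exact (hS.th y' e f h1 h2 h4 _ (by rw [h3]; exact h5) ξ ((mem_VS' hp h1 h2).1 hξ)).symm

theorem JPot.near [CompleteSpace W] (hp : IsCoveringMap p) {y : E} {e : Chart n X}
    {G : Cm n → W} (he : At e (p y)) (h : JPot p F Θ y e G) :
    ∀ᶠ y' in 𝓝 y, JPot p F Θ y' e G := by
  have h1 : ∀ᶠ y' in 𝓝 y, AnalyticAt ℂ G (e (p y')) :=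
    (ep_ev hp.isLocalHomeomorph he).2 h.an.eventually_analyticAt
  filter_upwards [h1, h.pot.eventually_nhds] with y' g1 g2
  exact ⟨g1, g2⟩

end

section
variable {n q : ℕ} {X : Type} [TopologicalSpace X] [ChartedSpace (Cm n) X]
  {E W : Type} [TopologicalSpace E] [NormedAddCommGroup W] [InnerProductSpace ℂ W]
  {p : E → X} {F : E → Cm q} {Θ : E → Chart n X → (Cm n →L[ℂ] W)}
  {J : W →SL[starRingEnd ℂ] W} {T : E → E → W}

theorem TwoPot.self (h : TwoPot p F Θ J T) {y : E} (hy : F y ∈ RV n p F) : T y y = 0 := by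
  have := h.add y y y rfl rfl hy
  simpa using this

theorem TwoPot.symm (h : TwoPot p F Θ J T) {y y' : E} (hyy : F y = F y') (hy : F y ∈ RV n p F) :
    T y' y = - T y y' := by
  have h1 := h.add y y' y hyy hyy.symm hy
  rw [TwoPot.self h hy] at h1
  exact eq_neg_of_add_eq_zero_right h1

/-- the potentials of the fibres and the two point potential -/
theorem pot_eq [CompleteSpace W] (hp : IsCoveringMap p) (h : TwoPot p F Θ J T) {t : Cm q}
    (ht : t ∈ RV n p F) (hc : IsConnected (F ⁻¹' {t}))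
    (hj : ∀ y e, Reg (n := n) p F y → At e (p y) → ∃ G : Cm n → W, JPot p F Θ y e G)
    {u : E → W} (hu : VPotJ p F t Θ J u) {y y' : E} (hy : F y = t) (hy' : F y' = t) :
    u y' = u y + T y y' := by
  have key := fib_ind hc.isPreconnected (P := fun z => u z = u y + T y z) (fun y₁ hy₁ => ?_) hy
    (by rw [TwoPot.self h (hy ▸ ht), add_zero])
  · exact key y' hy'
  · have hR : Reg (n := n) p F y₁ := ht y₁ hy₁
    obtain ⟨e, he⟩ : ∃ e : Chart n X, At e (p y₁) :=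
      ⟨chartAt (Cm n) (p y₁), chart_mem_atlas _ _, mem_chart_source _ _⟩
    obtain ⟨G, hG⟩ := hj y₁ e hR he
    obtain ⟨c₀, hc₀⟩ := hu y₁ e G hy₁ he hG.an (by
      filter_upwards [hG.pot] with z hz _
      exact hz)
    obtain ⟨a, -, ha⟩ := h.loc y₁ y₁ e e G G rfl (hy₁ ▸ ht) he he hG hG
    have ha1 : ∀ᶠ z in 𝓝 y₁, F y₁ = F z →
        T y₁ z = (G (e (p z)) - G (e (p y₁)) + a (F y₁)) +
          J (G (e (p z)) - G (e (p y₁)) + a (F y₁)) :=
      (tendsto_const_nhds.prodMk_nhds tendsto_id).eventually ha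
    filter_upwards [hc₀, ha1] with z h1 h2 hz
    have e0 := hc₀.self_of_nhds hy₁
    have e1 := h1 hz
    have e2 := h2 (hy₁.trans hz.symm)
    have e3 := ha1.self_of_nhds rfl
    rw [TwoPot.self h (hy₁ ▸ ht)] at e3
    have e4 := h.add y y₁ z (hy.trans hy₁.symm) (hy₁.trans hz.symm) (hy ▸ ht)
    have e5 : T y₁ z = u z - u y₁ := by
      rw [e2, e1, e0]
      simp only [map_add, map_sub] at e3 ⊢
      have : (0 : W) = a (F y₁) + J (a (F y₁)) := by
        rw [e3]; abel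
      have e6 : G (e (p z)) - G (e (p y₁)) + a (F y₁) + (J (G (e (p z))) - J (G (e (p y₁))) +
          J (a (F y₁))) = G (e (p z)) + J (G (e (p z))) - (G (e (p y₁)) + J (G (e (p y₁)))) +
          (a (F y₁) + J (a (F y₁))) := by abel
      rw [e6, ← this]
      abel
    rw [← e4, e5]
    have e7 : u y + (T y y₁ + (u z - u y₁)) = u z + (u y + T y y₁ - u y₁) := by abel
    rw [e7, left_eq_add, sub_eq_zero]
    exact eq_comm

end

end Vale.Agent.P284.H213.T
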