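import Vale.Agent.P284.H213.T.Desc
import Vale.Agent.P284.H224.N.Tw
import Vale.Agent.P284.H885.Ker2
import Vale.Agent.P284.H913.V18

/-!
# P284 (helper213), T3⁺ (N3): `DescStmt`
-/

open scoped Manifold ContDiff Topology InnerProductSpace ComplexConjugate
open Filter Set Metric

noncomputable section

set_option linter.unusedSectionVars false

namespace Vale.Agent.P284.H213.T

open Vale.Agent.P272.K Vale.Agent.P284.H894 Vale.Agent.P284.H894.G Vale.Agent.P284.H894.V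
  Vale.Agent.P284.H894.W Vale.Agent.P284.H573 Vale.Agent.P284.H213.Grp Vale.Agent.P284.H395
  Vale.Agent.P284.H619 Vale.Agent.P284.H625 Vale.Agent.P284.H378 Vale.Agent.P284.H478.G
  Vale.Agent.P284.H988.N Vale.Agent.P284.H494 Vale.Agent.P284.H494.N Vale.Agent.P284.H501.Core
  Vale.Agent.P284.H119.Kaz Vale.Agent.P284.H213.Q Vale.Agent.P284.H837.N Vale.Agent.P284.H650.T
  Vale.Agent.P284.H501

section
variable {n q : ℕ} {X : Type} [TopologicalSpace X] [T2Space X] [CompactSpace X] [ConnectedSpace X]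
  [ChartedSpace (Cm n) X] [IsManifold 𝓘(ℂ, Cm n) ω X]
  {w : Chart n X → Cm n → Matrix (Fin n) (Fin n) ℂ} {E Γ : Type} [TopologicalSpace E]
  [ConnectedSpace E] [Group Γ] [MulAction Γ E] {p : E → X} {F : E → Cm q} {G K : Subgroup Γ}
  {A : Γ →* (Cm q ≃ₗ[ℂ] Cm q)} {c : Γ → Cm q}

theorem map_mk_iff {L M : Subgroup Γ} [M.Normal] (hL : M ≤ L) (g : Γ) :
    (g : Γ ⧸ M) ∈ L.map (QuotientGroup.mk' M) ↔ g ∈ L := by
  constructor
  · rintro ⟨k, hk, hkg⟩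
    have h1 : k⁻¹ * g ∈ M := QuotientGroup.eq.1 hkg
    have h2 := L.mul_mem hk (hL h1)
    rwa [mul_inv_cancel_left] at h2
  · intro hg
    exact ⟨g, hg, rfl⟩

theorem inv_of (h : StdN w G p F A c K) {m : Γ} (hm : m ∈ K) (y : E) : F (m • y) = F y := by
  obtain ⟨h1, h2⟩ := (h.ker m).1 hm
  rw [h.eqv, h.dat.one m h1, h2, add_zero]
  rfl

theorem twi_of (h : StdN w G p F A c K) : H224.N.Twi Γ F :=
  fun g => ⟨(A g).toContinuousLinearEquiv, c g, fun y => h.eqv g y⟩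

theorem reg_smul_of (h : StdN w G p F A c K) (g : Γ) {y : E} (hy : Reg (n := n) p F y) :
    Reg (n := n) p F (g • y) := ((twi_of h).reg_smul_iff h.gal g y).2 hy

theorem vs_smul (h : StdN w G p F A c K) (g : Γ) {y : E} {e : Chart n X} {ξ : Cm n}
    (hξ : ξ ∈ VS p F y e) : ξ ∈ VS p F (g • y) e := by
  intro f hf
  obtain ⟨A', b, hA⟩ := twi_of h g⁻¹
  have h1 : ∀ᶠ y' in 𝓝 y, F y' = A' (f (e (p y'))) + b := by
    have h2 : Tendsto (fun y' => g • y') (𝓝 y) (𝓝 (g • y)) := (h.gal.cont g).continuousAt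
    filter_upwards [h2.eventually hf] with y' hy'
    have h3 := hA (g • y')
    rw [inv_smul_smul] at h3
    rw [h3, hy', H885.map_smul h.gal]
  have h4 := hξ (fun z => A' (f z) + b) h1
  rw [H224.N.fderiv_aff] at h4
  rw [H885.map_smul h.gal]
  exact A'.injective (h4.trans (map_zero A').symm)

/-- descent of the standing data -/
theorem stdN_mk (h : StdN w G p F A c K) (M : Subgroup Γ) [M.Normal] (hMK : M ≤ K)
    (hF : ∀ m ∈ M, ∀ y, F (m • y) = F y) :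
    ∃ (A₁ : Γ ⧸ M →* (Cm q ≃ₗ[ℂ] Cm q)) (c₁ : Γ ⧸ M → Cm q), (∀ g : Γ, c₁ (g : Γ ⧸ M) = c g) ∧
      (∀ g : Γ, A₁ (g : Γ ⧸ M) = A g) ∧
      StdN w (G.map (QuotientGroup.mk' M)) (H885.toX h.gal M) (H885.desc M F hF) A₁ c₁
        (K.map (QuotientGroup.mk' M)) := by
  have hKG : K ≤ G := fun g hg => ((h.ker g).1 hg).1
  obtain ⟨A₁, c₁, hc₁, hA₁, hD₁⟩ := h.dat.quot M (hMK.trans hKG) LinearMap.id
    Function.surjective_id (fun g v hv => by
      rw [LinearMap.id_apply] at hv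
      rw [hv, map_zero, map_zero]) h.dat.lat (fun m hm => ((h.ker m).1 (hMK hm)).2)
  have hc₁' : ∀ g : Γ, c₁ (g : Γ ⧸ M) = c g := hc₁
  have hA₁' : ∀ g : Γ, A₁ (g : Γ ⧸ M) = A g := fun g => LinearEquiv.ext fun v => (hA₁ g v).symm
  refine ⟨A₁, c₁, hc₁', hA₁', ⟨h.kah, H885.isGalois_toX h.gal M, ?_, fun g a => ?_, ?_, ?_, hD₁,
    fun g => ?_, ?_, fun hv => h.nvi ?_, ?_⟩⟩
  · obtain ⟨B, hB⟩ := h.hol
    exact ⟨B, H885.holB_desc h.gal M hF hB⟩
  · obtain ⟨g, rfl⟩ := QuotientGroup.mk_surjective g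
    obtain ⟨y, rfl⟩ := H885.mk_surjective M a
    show F (g • y) = A₁ (g : Γ ⧸ M) (F y) + c₁ (g : Γ ⧸ M)
    rw [h.eqv, hc₁', hA₁']
  · obtain ⟨y, hy⟩ := h.reg
    exact ⟨H885.mk M y, (H885.reg_desc h.gal M hF y).2 hy⟩
  · obtain ⟨T, hT, hTi, h1⟩ := h.conn
    refine ⟨T, hT, hTi, fun t ht => ⟨?_, fun a ha => ?_⟩⟩
    · have h2 : H885.desc M F hF ⁻¹' {t} = H885.mk M '' (F ⁻¹' {t}) := by
        ext a
        obtain ⟨y, rfl⟩ := H885.mk_surjective M a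
        constructor
        · intro hy
          exact ⟨y, hy, rfl⟩
        · rintro ⟨y', hy', hyy⟩
          rw [← hyy]
          exact hy'
      rw [h2]
      exact (h1 t ht).1.image _ (H885.mk_isQuotientMap M).continuous.continuousOn
    · obtain ⟨y, rfl⟩ := H885.mk_surjective M a
      exact (H885.reg_desc h.gal M hF y).2 ((h1 t ht).2 y ha)
  · obtain ⟨g, rfl⟩ := QuotientGroup.mk_surjective g
    rw [map_mk_iff hMK, map_mk_iff (hMK.trans hKG), hc₁', h.ker]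
  · have : Group.FG K := h.fg
    exact Group.fg_of_surjective ((QuotientGroup.mk' M).subgroupMap_surjective K)
  · exact H913.V.VirtIndicable.of_surjective _ ((QuotientGroup.mk' M).subgroupMap_surjective K) hv
  · intro V _ _ _ ρ
    refine (h.fr V (ρ.comp (QuotientGroup.mk' M))).subset ?_
    rintro _ ⟨_, ⟨k, hk, rfl⟩, rfl⟩
    exact ⟨k, hk, rfl⟩

variable {W : Type} [NormedAddCommGroup W] [InnerProductSpace ℂ W] [CompleteSpace W]
  {ρ : Γ →* (W ≃ₗᵢ[ℂ] W)} {S : E → Chart n X → Cm n [⋀^Fin (q + 1)]→L[ℂ] W}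
  {Θ : E → Chart n X → (Cm n →L[ℂ] W)} {J : W →SL[starRingEnd ℂ] W} {T : E → E → W}

/-- descent of the output of the limit -/
theorem jdatN_mk (h : StdN w G p F A c K) (hJ : JDatN G p F c ρ S Θ J T) (M : Subgroup Γ)
    [M.Normal] (hMK : M ≤ K) (hF : ∀ m ∈ M, ∀ y, F (m • y) = F y)
    (hM : ∀ g ∈ M, AffTriv n p F ρ T g) {c₁ : Γ ⧸ M → Cm q} (hc₁ : ∀ g : Γ, c₁ (g : Γ ⧸ M) = c g)
    {ρ₁ : Γ ⧸ M →* (W ≃ₗᵢ[ℂ] W)} (hρ₁ : ∀ g : Γ, ρ₁ (g : Γ ⧸ M) = ρ g) :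
    JDatN (G.map (QuotientGroup.mk' M)) (H885.toX h.gal M) (H885.desc M F hF) c₁ ρ₁ (S₁ M S)
      (Θ₁ M Θ) J (T₁ M T) := by
  have hKG : K ≤ G := fun g hg => ((h.ker g).1 hg).1
  have hp := h.gal
  have hcov := hp.cov
  have hp' := hcov.isLocalHomeomorph
  obtain ⟨B, hB⟩ := h.hol
  obtain ⟨hRV, hconn⟩ := rv_adat h
  have hcont : Continuous F := H221.holB_cont hcov hB
  have hρ1 : ∀ m ∈ M, ρ m = 1 := fun m hm => (hM m hm).1
  have hS : ∀ m ∈ M, ∀ y e, At e (p y) → S (m • y) e = S y e := by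
    intro m hm y e he
    ext ξ
    have h1 := hJ.dat.rel.equi ⟨m, hKG (hMK hm)⟩ y e he ξ
    have h2 : (ρ.comp G.subtype) ⟨m, hKG (hMK hm)⟩ = 1 := hρ1 m hm
    rw [h2] at h1
    exact h1
  have hΘ : ∀ m ∈ M, ∀ y e, Reg (n := n) p F y → At e (p y) → ∀ ξ ∈ VS p F y e,
      Θ (m • y) e ξ = Θ y e ξ := by
    intro m hm y e hy he ξ hξ
    rw [hJ.equi m y e hy he ξ hξ, hρ1 m hm]
    rfl
  have hT0 : ∀ m ∈ M, ∀ y, F y ∈ RV n p F → T y (m • y) = 0 := fun m hm => (hM m hm).2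
  have hjp : ∀ y e, Reg (n := n) p F y → At e (p y) → ∃ G : Cm n → W, JPot p F Θ y e G :=
    fun y e hy he => jpot_ex hcov hB hJ.dat.rel hy he
  have hisJ : IsJ ρ₁ J := by
    refine ⟨hJ.isJ.invol, hJ.isJ.inner, fun g x => ?_⟩
    obtain ⟨g, rfl⟩ := QuotientGroup.mk_surjective g
    rw [hρ₁]
    exact hJ.isJ.comm g x
  refine ⟨⟨srel_mk hp M hF hcov hB hρ₁ hS hΘ hJ.dat.rel, ⟨hisJ.invol, hisJ.inner,
    fun g x => hisJ.comm g x⟩, fun x h1 h2 => ?_, fun t _ hreg => ?_⟩, hisJ,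
    twoPot_mk hp M hF hcov hΘ hRV hcont hJ.two hT0, fun g a a' h1 h2 => ?_, fun a ha => ?_,
    fun g a e ha he ξ hξ => ?_⟩
  · refine hJ.dat.total x (fun y e he ξ => ?_) fun y e he ξ => ?_
    · rw [← S₁_mk (p := p) M hS he]
      exact h1 (H885.mk M y) e he ξ
    · rw [← S₁_mk (p := p) M hS he]
      exact h2 (H885.mk M y) e he ξ
  · have ht : t ∈ RV n p F := by
      rw [← rv_mk hp M hF]
      exact hreg
    have hc := hconn t ht
    obtain ⟨u, hu1, hu2⟩ := hJ.dat.pot t hc ht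
    obtain ⟨y₀, hy₀⟩ := hc.nonempty
    have hu : ∀ y, F y = t → u (sec M (H885.mk M y)) = u y := by
      intro y hy
      obtain ⟨m, hm, hm1⟩ := sec_mk M y
      rw [← hm1, pot_eq hcov hJ.two ht hc hjp hu2 hy ((hF m hm y).trans hy),
        hT0 m hm y (hy ▸ ht), add_zero]
    refine ⟨fun a => u (sec M a), fun g hg => ?_, fun a e G₀ ha he hG₀ hpot => ?_⟩
    · obtain ⟨_, g, hgG, rfl⟩ := g
      have hcg : c g = 0 := by
        rw [← hc₁ g]
        exact hg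
      obtain ⟨b, hb⟩ := hu1 ⟨g, hgG⟩ hcg
      refine ⟨b, fun a ha => ?_⟩
      obtain ⟨y, rfl⟩ := H885.mk_surjective M a
      have hy : F y = t := ha
      have hgy : F (g • y) = t := by
        rw [inv_of h ((h.ker g).2 ⟨hgG, hcg⟩)]
        exact hy
      show u (sec M (H885.mk M (g • y))) = ρ₁ (g : Γ ⧸ M) (u (sec M (H885.mk M y))) + b
      rw [hu _ hgy, hu y hy, hρ₁]
      exact hb y hy
    · obtain ⟨y, rfl⟩ := H885.mk_surjective M a
      have hy : F y = t := ha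
      have he' : At e (p y) := he
      have h3 : ∀ᶠ y' in 𝓝 y, F y' = t → ∀ ξ ∈ VS p F y' e,
          fderiv ℂ G₀ (e (p y')) ξ = Θ y' e ξ := by
        filter_upwards [(H885.eventually_mk hp M y).1 hpot, ep_at hp' he'] with y' g1 g2 g3 ξ hξ
        rw [vs_mk hp M hF] at g1
        rw [← Θ₁_mk M hΘ (ht y' g3) g2 hξ]
        exact g1 g3 ξ hξ
      obtain ⟨c₀, hc₀⟩ := hu2 y e G₀ hy he' hG₀ h3
      refine ⟨c₀, (H885.eventually_mk hp M y).2 ?_⟩
      filter_upwards [hc₀] with y' g1 g2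
      have g3 : F y' = t := g2
      show u (sec M (H885.mk M y')) = _
      rw [hu y' g3]
      exact g1 g3
  · obtain ⟨g, rfl⟩ := QuotientGroup.mk_surjective g
    obtain ⟨y, rfl⟩ := H885.mk_surjective M a
    obtain ⟨y', rfl⟩ := H885.mk_surjective M a'
    rw [rv_mk hp M hF] at h2
    have g1 : F y = F y' := h1
    have g2 : F y ∈ RV n p F := h2
    have g3 : F (g • y) = F (g • y') := by rw [h.eqv, h.eqv, g1]
    have g4 : F (g • y) ∈ RV n p F := (twi_of h).rv h.gal g2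
    show T₁ M T (H885.mk M (g • y)) (H885.mk M (g • y')) =
      ρ₁ (g : Γ ⧸ M) (T₁ M T (H885.mk M y) (H885.mk M y'))
    rw [T₁_mk M hF hJ.two hT0 g3 g4, T₁_mk M hF hJ.two hT0 g1 g2, hρ₁]
    exact hJ.equiT g y y' g1 g2
  · obtain ⟨y, rfl⟩ := H885.mk_surjective M a
    have hy := (H885.reg_desc hp M hF y).1 ha
    intro e e' he he' ξ hξ
    rw [vs_mk hp M hF] at hξ
    rw [Θ₁_mk M hΘ hy he hξ]
    exact (hJ.chg y hy e e' he he' ξ hξ).trans
      (Θ₁_mk M hΘ hy he' (H885.Ker.vs_change hcov hB he he' hξ)).symm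
  · obtain ⟨g, rfl⟩ := QuotientGroup.mk_surjective g
    obtain ⟨y, rfl⟩ := H885.mk_surjective M a
    have hy := (H885.reg_desc hp M hF y).1 ha
    rw [vs_mk hp M hF] at hξ
    have he' : At e (p (g • y)) := by
      rw [H885.map_smul hp]
      exact he
    show Θ₁ M Θ (H885.mk M (g • y)) e ξ = ρ₁ (g : Γ ⧸ M) (Θ₁ M Θ (H885.mk M y) e ξ)
    rw [Θ₁_mk M hΘ hy he hξ, Θ₁_mk M hΘ (reg_smul_of h g hy) he' (vs_smul h g hξ), hρ₁]
    exact hJ.equi g y e hy he ξ hξ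

end

/-- **(N3)** -/
theorem descStmt : DescStmt := by
  intro n q X _ _ _ _ _ _ w E Γ _ _ _ _ p F G K A c h W _ _ _ ρ S Θ J T hJ M _ hMK hM
  have hF : ∀ m ∈ M, ∀ y, F (m • y) = F y := fun m hm y => inv_of h (hMK hm) y
  obtain ⟨A₁, c₁, hc₁, -, hStd⟩ := stdN_mk h M hMK hF
  have hρ1 : M ≤ ρ.ker := fun m hm => (hM m hm).1
  let ρ₁ : Γ ⧸ M →* (W ≃ₗᵢ[ℂ] W) := QuotientGroup.lift M ρ hρ1
  have hρ₁ : ∀ g : Γ, ρ₁ (g : Γ ⧸ M) = ρ g := fun g => rfl
  have hc : ConnectedSpace (H885.Quo E M) := H885.connected_quo M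
  have hJD := jdatN_mk h hJ M hMK hF hM hc₁ hρ₁
  refine ⟨A₁, c₁, H885.Quo E M, inferInstance, hc, inferInstance, H885.toX h.gal M,
    H885.desc M F hF, ρ₁, S₁ M S, Θ₁ M Θ, T₁ M T, hStd, hJD, hc₁, hρ₁, fun g hg => ?_⟩
  have hT0 : ∀ m ∈ M, ∀ y, F y ∈ RV n p F → T y (m • y) = 0 := fun m hm => (hM m hm).2
  have key : ∀ y, F y ∈ RV n p F →
      T₁ M T (H885.mk M y) ((g : Γ ⧸ M) • H885.mk M y) = T y (g • y) := fun y hy =>
    T₁_mk M hF hJ.two hT0 (inv_of h hg y).symm hy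
  constructor
  · intro h1
    refine ⟨h1.1, fun y hy => ?_⟩
    rw [← key y hy]
    refine h1.2 (H885.mk M y) ?_
    rw [rv_mk h.gal M hF]
    exact hy
  · intro h1
    refine ⟨h1.1, fun a ha => ?_⟩
    obtain ⟨y, rfl⟩ := H885.mk_surjective M a
    rw [rv_mk h.gal M hF] at ha
    have hy : F y ∈ RV n p F := ha
    rw [key y hy]
    exact h1.2 y hy

end Vale.Agent.P284.H213.T
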